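import Vale.Agent.helper2.P047D

namespace Vale.Agent.Results.P047.LinearBound

open Vale.Agent.helper2.P047

/-- For `d ≥ 2`, every Boolean function `f : {-1,1}^n → {-1,1}` of degree at most `d` satisfies
`∑ i, fhat f {i} ≤ (24/25) * d`. Here `fhat f S` is the Fourier coefficient `E[f(X) ∏_{i ∈ S} X_i]`
for `X` uniform on the cube, and `Bool` encodes `{-1,1}` by `true ↦ 1`, `false ↦ -1`. -/
theorem result (n d : ℕ) (hd : 2 ≤ d) (f : (Fin n → Bool) → ℝ)
    (hf : ∀ x, f x = 1 ∨ f x = -1)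
    (hdeg : ∀ S : Finset (Fin n), d < S.card → fhat f S = 0) :
    ∑ i : Fin n, fhat f {i} ≤ (24 / 25) * d :=
  main_bound d hd f hf hdeg

end Vale.Agent.Results.P047.LinearBound
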